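import Mathlib
import Crest.Prelude.Def_AsymptoticConvexity
import Crest.Prelude.Def_TreePotentials
import Crest.Agent.Helper30.AUCBasic

/-!
# Package [B2] of row 125 (helper4): functional-analytic part of S0168 (tree potential models)

Basic facts on the model spaces: evaluation at tests, the linear-relation lemma, indicator tests,
separability, root-path vectors, infinite-dimensionality and non-AUC-renormability.
-/

set_option autoImplicit false

namespace Crest.Agent.Helper4

open Crest.AnalysisR Crest.AnalysisR.TreePotential Crest.Agent.Helper30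
open Filter Topology

/-- The ambient space of bounded functions on the tests of model `m`. -/
abbrev TAmb (m : PotentialModel) := lp (fun _ : PotentialTest m => ℝ) ⊤

/-- Evaluation at a test, as a continuous linear functional on the ambient space. -/
noncomputable def evalAmb (m : PotentialModel) (f : PotentialTest m) : TAmb m →L[ℝ] ℝ :=
  lp.evalCLM ℝ (fun _ : PotentialTest m => ℝ) ⊤ f

theorem evalAmb_apply (m : PotentialModel) (f : PotentialTest m) (x : TAmb m) :
    evalAmb m f x = x f := rfl

theorem coordVector_apply (m : PotentialModel) (s : List ℕ) (f : PotentialTest m) :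
    coordVector m s f = f.1 s := rfl

theorem abs_apply_le_norm (m : PotentialModel) (x : TAmb m) (f : PotentialTest m) :
    |x f| ≤ ‖x‖ := by
  have := lp.norm_apply_le_norm (p := ⊤) (by simp) x f
  simpa [Real.norm_eq_abs] using this

theorem apply_le_norm (m : PotentialModel) (x : TAmb m) (f : PotentialTest m) :
    x f ≤ ‖x‖ := (le_abs_self _).trans (abs_apply_le_norm m x f)

/-- **Linear relation lemma**: a pointwise linear relation between tests is respected by every
element of the model space. -/
theorem lin_rel (m : PotentialModel) {ι : Type*} (I : Finset ι) (c : ι → ℝ)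
    (f : ι → PotentialTest m) (f0 : PotentialTest m)
    (h : ∀ u : List ℕ, f0.1 u = ∑ i ∈ I, c i * (f i).1 u) {x : TAmb m} (hx : x ∈ modelSpace m) :
    x f0 = ∑ i ∈ I, c i * x (f i) := by
  let L : TAmb m →L[ℝ] ℝ := evalAmb m f0 - ∑ i ∈ I, c i • evalAmb m (f i)
  have hL : ∀ y : TAmb m, L y = y f0 - ∑ i ∈ I, c i * y (f i) := by
    intro y
    simp [L, evalAmb_apply]
  have hset : (modelSpace m : Set (TAmb m)) ⊆ {y | L y = 0} := by
    unfold modelSpace
    rw [Submodule.topologicalClosure_coe]
    refine closure_minimal ?_ (isClosed_eq L.continuous continuous_const)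
    intro y hy
    refine Submodule.span_induction (p := fun y _ => L y = 0) ?_ ?_ ?_ ?_ hy
    · rintro _ ⟨u, rfl⟩
      rw [hL]
      simp only [coordVector_apply]
      rw [h u, sub_self]
    · exact map_zero L
    · intro y z _ _ hy hz
      rw [map_add, hy, hz, add_zero]
    · intro a y _ hy
      rw [map_smul, hy, smul_zero]
  have h1 : L x = 0 := hset hx
  rw [hL] at h1
  linarith

/-- Two-term linear relation. -/
theorem lin_rel2 (m : PotentialModel) (a b : ℝ) (f0 f1 f2 : PotentialTest m)
    (h : ∀ u : List ℕ, f0.1 u = a * f1.1 u + b * f2.1 u) {x : TAmb m} (hx : x ∈ modelSpace m) :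
    x f0 = a * x f1 + b * x f2 := by
  have := lin_rel m (Finset.univ : Finset (Fin 2)) ![a, b] ![f1, f2] f0
    (by intro u; simp [Fin.sum_univ_two, h u]) hx
  simpa [Fin.sum_univ_two] using this

/-! ### Indicator tests -/

theorem pathPotential_single (s : List ℕ) (v : List ℕ) :
    pathPotential (fun u => if u = s then (1 : ℝ) else 0) v = if s <:+ v then 1 else 0 := by
  induction v with
  | nil =>
    simp only [pathPotential, List.suffix_nil]
    by_cases h : s = []
    · simp [h]
    · simp [h, Ne.symm h]
  | cons a v ih =>
    simp only [pathPotential, ih, List.suffix_cons_iff]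
    by_cases h1 : s <:+ v
    · have h2 : a :: v ≠ s := by
        rintro rfl
        have := h1.length_le
        simp at this
      simp [h1, h2]
    · by_cases h2 : a :: v = s
      · simp [h1, h2]
      · simp [h1, h2, Ne.symm h2]

theorem sum_single_sq_le_one {α : Type*} [DecidableEq α] (A : Finset α) (a : α) :
    ∑ u ∈ A, (if u = a then (1 : ℝ) else 0) ^ 2 ≤ 1 := by
  have : ∀ u ∈ A, (if u = a then (1 : ℝ) else 0) ^ 2 = if u = a then 1 else 0 := by
    intro u _; split_ifs <;> simp
  rw [Finset.sum_congr rfl this, Finset.sum_ite_eq']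
  split_ifs <;> norm_num

theorem sum_single_cons_sq_le_one (s r : List ℕ) (A : Finset ℕ) :
    ∑ n ∈ A, (if n :: r = s then (1 : ℝ) else 0) ^ 2 ≤ 1 := by
  rcases s with _ | ⟨b, s'⟩
  · simp
  · by_cases h : r = s'
    · subst h
      have : ∀ n ∈ A, (if n :: r = b :: r then (1 : ℝ) else 0) ^ 2 = (if n = b then (1 : ℝ) else 0) ^ 2 := by
        intro n _; simp
      rw [Finset.sum_congr rfl this]
      exact sum_single_sq_le_one A b
    · have : ∀ n ∈ A, (if n :: r = b :: s' then (1 : ℝ) else 0) ^ 2 = 0 := by
        intro n _; simp [h]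
      rw [Finset.sum_congr rfl this]
      simp

/-- The indicator of a vertex is a test (of a non-root vertex in the rootless model). -/
theorem isTest_single (m : PotentialModel) (s : List ℕ)
    (hs : m = PotentialModel.rootlessSibling → s ≠ []) :
    IsTest m (fun u => if u = s then (1 : ℝ) else 0) := by
  refine ⟨fun v => ?_, ?_⟩
  · rw [pathPotential_single]
    split_ifs <;> simp
  · cases m with
    | rootlessSibling =>
      refine ⟨?_, fun r A => sum_single_cons_sq_le_one s r A⟩
      have := hs rfl
      simp [Ne.symm this]
    | rootedSibling => exact fun r A => sum_single_cons_sq_le_one s r A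
    | antichain =>
      refine ⟨?_, fun A _ => sum_single_sq_le_one A s⟩
      refine (Set.finite_singleton s).subset ?_
      intro u hu
      simp only [Function.mem_support, ne_eq, ite_eq_right_iff, one_ne_zero, imp_false,
        not_not] at hu
      exact hu
    | global => exact fun A => sum_single_sq_le_one A s

/-- The indicator test at `s`. -/
noncomputable def singleTest (m : PotentialModel) (s : List ℕ)
    (hs : m = PotentialModel.rootlessSibling → s ≠ []) : PotentialTest m :=
  ⟨fun u => if u = s then (1 : ℝ) else 0, isTest_single m s hs⟩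

/-- Sibling square sums of a test are at most one in all four models. -/
theorem sibling_sq_sum_le_one (m : PotentialModel) (f : PotentialTest m) (r : List ℕ)
    (A : Finset ℕ) : ∑ n ∈ A, f.1 (n :: r) ^ 2 ≤ 1 := by
  obtain ⟨f, hf1, hf2⟩ := f
  cases m with
  | rootlessSibling => exact hf2.2 r A
  | rootedSibling => exact hf2 r A
  | antichain =>
    have hinj : Set.InjOn (fun n : ℕ => n :: r) (A : Set ℕ) := by
      intro a _ b _ hab
      simpa using hab
    have hA : IsTreeAntichain (A.image (fun n : ℕ => n :: r)) := by
      intro u hu v hv huv hsuf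
      simp only [Finset.mem_image] at hu hv
      obtain ⟨a, _, rfl⟩ := hu
      obtain ⟨b, _, rfl⟩ := hv
      have := List.IsSuffix.eq_of_length hsuf (by simp)
      exact huv this
    have := hf2.2 _ hA
    rwa [Finset.sum_image hinj] at this
  | global =>
    have hinj : Set.InjOn (fun n : ℕ => n :: r) (A : Set ℕ) := by
      intro a _ b _ hab
      simpa using hab
    have := hf2 (A.image (fun n : ℕ => n :: r))
    rwa [Finset.sum_image hinj] at this

/-! ### Coordinate vectors and root-path vectors in the model space -/

theorem coordVector_mem (m : PotentialModel) (s : List ℕ) : coordVector m s ∈ modelSpace m :=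
  Submodule.le_topologicalClosure _ (Submodule.subset_span ⟨s, rfl⟩)

/-- The root-path vector of `s`: the sum of the coordinate vectors of `s` and its ancestors. -/
noncomputable def zvec (m : PotentialModel) : List ℕ → TAmb m
  | [] => coordVector m []
  | a :: v => zvec m v + coordVector m (a :: v)

theorem zvec_apply (m : PotentialModel) (s : List ℕ) (f : PotentialTest m) :
    zvec m s f = pathPotential f.1 s := by
  induction s with
  | nil => rfl
  | cons a v ih =>
    simp only [zvec, pathPotential, lp.coeFn_add, Pi.add_apply, ih, coordVector_apply]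

theorem zvec_mem (m : PotentialModel) (s : List ℕ) : zvec m s ∈ modelSpace m := by
  induction s with
  | nil => exact coordVector_mem m []
  | cons a v ih => exact (modelSpace m).add_mem ih (coordVector_mem m (a :: v))

theorem norm_zvec_le (m : PotentialModel) (s : List ℕ) : ‖zvec m s‖ ≤ 1 := by
  refine lp.norm_le_of_forall_le zero_le_one fun f => ?_
  rw [zvec_apply, Real.norm_eq_abs]
  exact f.2.1 s

/-- Coordinate vectors as elements of the model space. -/
noncomputable def coordE (m : PotentialModel) (s : List ℕ) : ↥(modelSpace m) :=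
  ⟨coordVector m s, coordVector_mem m s⟩

/-- Root-path vectors as elements of the model space. -/
noncomputable def zE (m : PotentialModel) (s : List ℕ) : ↥(modelSpace m) :=
  ⟨zvec m s, zvec_mem m s⟩

theorem zE_cons_sub (m : PotentialModel) (k : ℕ) (s : List ℕ) :
    zE m (k :: s) - zE m s = coordE m (k :: s) := by
  apply Subtype.ext
  simp [zE, coordE, zvec]

theorem one_le_norm_coordE_cons (m : PotentialModel) (k : ℕ) (s : List ℕ) :
    1 ≤ ‖coordE m (k :: s)‖ := by
  have h := abs_apply_le_norm m (coordVector m (k :: s)) (singleTest m (k :: s) (by simp))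
  have h1 : coordVector m (k :: s) (singleTest m (k :: s) (by simp)) = 1 := by
    simp [coordVector_apply, singleTest]
  rw [h1, abs_one] at h
  exact h

theorem sign_sum_bound (m : PotentialModel) (s : List ℕ) (A : Finset ℕ) (σ : ℕ → ℝ)
    (hσ : ∀ k, σ k = 1 ∨ σ k = -1) :
    ‖∑ k ∈ A, σ k • coordE m (k :: s)‖ ^ 2 ≤ 1 * A.card := by
  have hnorm : ‖∑ k ∈ A, σ k • coordE m (k :: s)‖ ≤ Real.sqrt A.card := by
    rw [Submodule.coe_norm]
    refine lp.norm_le_of_forall_le (Real.sqrt_nonneg _) fun f => ?_
    have hval : ((∑ k ∈ A, σ k • coordE m (k :: s) : ↥(modelSpace m)) : TAmb m) f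
        = ∑ k ∈ A, σ k * f.1 (k :: s) := by
      rw [Submodule.coe_sum, lp.coeFn_sum, Finset.sum_apply]
      refine Finset.sum_congr rfl fun k _ => ?_
      simp [coordE, coordVector_apply]
    rw [hval, Real.norm_eq_abs]
    apply Real.abs_le_sqrt
    calc (∑ k ∈ A, σ k * f.1 (k :: s)) ^ 2
        ≤ (∑ k ∈ A, σ k ^ 2) * ∑ k ∈ A, f.1 (k :: s) ^ 2 := Finset.sum_mul_sq_le_sq_mul_sq _ _ _
      _ ≤ (A.card : ℝ) * 1 := by
          have h1 : ∑ k ∈ A, σ k ^ 2 = A.card := by
            have : ∀ k ∈ A, σ k ^ 2 = 1 := fun k _ => by
              rcases hσ k with h | h <;> rw [h] <;> norm_num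
            rw [Finset.sum_congr rfl this]
            simp
          rw [h1]
          exact mul_le_mul_of_nonneg_left (sibling_sq_sum_le_one m f s A) (Nat.cast_nonneg _)
      _ = A.card := mul_one _
  calc ‖∑ k ∈ A, σ k • coordE m (k :: s)‖ ^ 2 ≤ Real.sqrt A.card ^ 2 :=
        pow_le_pow_left₀ (norm_nonneg _) hnorm 2
    _ = 1 * A.card := by rw [Real.sq_sqrt (Nat.cast_nonneg _), one_mul]

theorem weaklyNull_coordE (m : PotentialModel) (s : List ℕ) :
    WeaklyNull (fun k => coordE m (k :: s)) :=
  weaklyNull_of_sign_sums (C := 1) (fun A σ hσ => sign_sum_bound m s A σ hσ)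

theorem not_finiteDimensional_modelSpace (m : PotentialModel) :
    ¬ FiniteDimensional ℝ ↥(modelSpace m) :=
  not_finiteDimensional_of_weaklyNull (weaklyNull_coordE m []) one_pos
    (fun k => one_le_norm_coordE_cons m k [])

theorem separableSpace_modelSpace (m : PotentialModel) :
    TopologicalSpace.SeparableSpace ↥(modelSpace m) := by
  have h : TopologicalSpace.IsSeparable (modelSpace m : Set (TAmb m)) := by
    unfold modelSpace
    rw [Submodule.topologicalClosure_coe]
    exact (Set.countable_range (coordVector m)).isSeparable.span.closure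
  exact h.separableSpace

theorem no_auc_modelSpace (m : PotentialModel) (N : ↥(modelSpace m) → ℝ)
    (hN : IsEquivNormOn N) : ¬ IsAUCOn N := by
  refine no_auc_of_bush (ι := List ℕ) (zE m) (fun s => ?_) one_pos (fun s => ?_) hN
  · rw [Submodule.coe_norm]
    exact norm_zvec_le m s
  · refine ⟨fun k => k :: s, ?_, fun k => ?_⟩
    · simp only [zE_cons_sub]
      exact weaklyNull_coordE m s
    · rw [zE_cons_sub]
      exact one_le_norm_coordE_cons m k s

/-- Clauses 1 and 3 of S0168. -/
theorem modelBanach_sepInf (m : PotentialModel) : (modelBanach m).IsSeparableInfiniteDim :=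
  ⟨separableSpace_modelSpace m, not_finiteDimensional_modelSpace m⟩

theorem modelBanach_no_auc (m : PotentialModel) (N : (modelBanach m).X → ℝ)
    (hN : (modelBanach m).IsEquivNorm N) : ¬ (modelBanach m).IsAUC N :=
  no_auc_modelSpace m N hN

end Crest.Agent.Helper4
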